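import Mathlib

namespace Vale.Agent.Lib.P038

open Finset

variable {V : Type*} [Fintype V]

/-- first out-neighbourhood of `v` in the digraph with arc relation `r` -/
def outN (r : V → V → Prop) [DecidableRel r] (v : V) : Finset V :=
  Finset.univ.filter (fun u => r v u)

lemma mem_outN (r : V → V → Prop) [DecidableRel r] {v u : V} : u ∈ outN r v ↔ r v u := by
  simp [outN]

variable [DecidableEq V]

/-- second out-neighbourhood of `v`: vertices at directed distance exactly two -/
def outN2 (r : V → V → Prop) [DecidableRel r] (v : V) : Finset V :=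
  Finset.univ.filter (fun w => w ≠ v ∧ ¬ r v w ∧ ∃ u, r v u ∧ r u w)

section
variable (r : V → V → Prop) [DecidableRel r]

lemma mem_outN2 {v w : V} :
    w ∈ outN2 r v ↔ w ≠ v ∧ ¬ r v w ∧ ∃ u, r v u ∧ r u w := by simp [outN2]

lemma outN_subset (hasym : ∀ u w, r u w → ¬ r w u) {v u : V} (hu : r v u) :
    outN r u ⊆ outN r v ∪ outN2 r v := by
  intro w hw
  rw [mem_outN] at hw
  rw [mem_union, mem_outN, mem_outN2]
  by_cases h : r v w
  · exact Or.inl h
  · refine Or.inr ⟨?_, h, u, hu, hw⟩
    rintro rfl
    exact hasym _ _ hu hw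

lemma disjoint_outN_outN2 (v : V) : Disjoint (outN r v) (outN2 r v) := by
  rw [Finset.disjoint_left]
  intro w hw hw2
  rw [mem_outN] at hw
  rw [mem_outN2] at hw2
  exact hw2.2.1 hw

lemma inter_outN_eq (u v : V) :
    outN r u ∩ outN r v = Finset.univ.filter (fun x => r v x ∧ r u x) := by
  ext x
  simp [mem_outN, and_comm]

lemma card_split (hasym : ∀ u w, r u w → ¬ r w u) {v u : V} (hu : r v u) :
    (outN r u ∩ outN r v).card + (outN r u ∩ outN2 r v).card = (outN r u).card := by
  have h1 : outN r u = (outN r u ∩ outN r v) ∪ (outN r u ∩ outN2 r v) := by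
    rw [← Finset.inter_union_distrib_left]
    exact (Finset.inter_eq_left.mpr (outN_subset r hasym hu)).symm
  have h2 : Disjoint (outN r u ∩ outN r v) (outN r u ∩ outN2 r v) :=
    (disjoint_outN_outN2 r v).mono Finset.inter_subset_right Finset.inter_subset_right
  conv_rhs => rw [h1]
  rw [Finset.card_union_of_disjoint h2]

/-- common out-neighbours of `u` and `w` contain the two disjoint pieces -/
lemma common_ge (u w v : V) :
    (outN r u ∩ outN r v ∩ (outN r w ∩ outN r v)).card
      + (outN r u ∩ outN2 r v ∩ (outN r w ∩ outN2 r v)).card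
      ≤ (Finset.univ.filter (fun x => r u x ∧ r w x)).card := by
  rw [← Finset.card_union_of_disjoint]
  · apply Finset.card_le_card
    intro x hx
    rw [Finset.mem_union] at hx
    simp only [Finset.mem_filter, Finset.mem_univ, true_and]
    rcases hx with hx | hx
    · simp only [Finset.mem_inter, mem_outN] at hx
      exact ⟨hx.1.1, hx.2.1⟩
    · simp only [Finset.mem_inter, mem_outN] at hx
      exact ⟨hx.1.1, hx.2.1⟩
  · exact (disjoint_outN_outN2 r v).mono
      (fun x hx => (Finset.mem_inter.mp (Finset.mem_inter.mp hx).1).2)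
      (fun x hx => (Finset.mem_inter.mp (Finset.mem_inter.mp hx).1).2)

/-- General bound: if every arc `u -> w` has at most `t` common out-neighbours and the
minimum out-degree is at least `3 t`, every vertex of minimum out-degree is a Seymour vertex. -/
theorem seymour_of_three_mul_le (hasym : ∀ u w, r u w → ¬ r w u) (t : ℕ)
    (ht : ∀ u w, r u w → (Finset.univ.filter (fun x => r u x ∧ r w x)).card ≤ t)
    (v : V) (hmin : ∀ x, (outN r v).card ≤ (outN r x).card)
    (hδ : 3 * t ≤ (outN r v).card) :
    (outN r v).card ≤ (outN2 r v).card := by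
  by_contra hlt
  rw [not_le] at hlt
  have hApos : 0 < (outN r v).card := by omega
  obtain ⟨u, hu⟩ := Finset.card_pos.mp hApos
  have hvu : r v u := (mem_outN r).mp hu
  have hX : ∀ u, r v u → (outN r u ∩ outN r v).card ≤ t := by
    intro u hu
    rw [inter_outN_eq]
    exact ht v u hu
  -- u has an out-neighbour inside A
  have hsplit := card_split r hasym hvu
  have hZle : (outN r u ∩ outN2 r v).card ≤ (outN2 r v).card :=
    Finset.card_le_card Finset.inter_subset_right
  have hXpos : 0 < (outN r u ∩ outN r v).card := by
    have := hmin u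
    omega
  obtain ⟨u', hu'⟩ := Finset.card_pos.mp hXpos
  have huu' : r u u' := (mem_outN r).mp (Finset.mem_inter.mp hu').1
  have hvu' : r v u' := (mem_outN r).mp (Finset.mem_inter.mp hu').2
  have hsplit' := card_split r hasym hvu'
  have hc := common_ge r u u' v
  have hcomm := ht u u' huu'
  have hunion : (outN r u ∩ outN2 r v ∪ outN r u' ∩ outN2 r v).card ≤ (outN2 r v).card :=
    Finset.card_le_card (Finset.union_subset Finset.inter_subset_right Finset.inter_subset_right)
  have hie := Finset.card_union_add_card_inter (outN r u ∩ outN2 r v) (outN r u' ∩ outN2 r v)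
  have h1 := hX u hvu
  have h2 := hX u' hvu'
  have h3 := hmin u
  have h4 := hmin u'
  omega

/-- Endgame: if no vertex is a Seymour vertex, the out-neighbourhood of a vertex `v` of minimum
out-degree cannot be a directed triangle `a -> a' -> c -> a`. -/
theorem triangle_endgame (hasym : ∀ u w, r u w → ¬ r w u)
    (hno : ∀ x, (outN2 r x).card < (outN r x).card)
    (v : V) (hmin : ∀ x, (outN r v).card ≤ (outN r x).card)
    (a a' c : V) (hva : r v a) (hva' : r v a') (hvc : r v c)
    (haa' : r a a') (ha'c : r a' c) (hca : r c a)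
    (hA3 : ∀ w, r v w → w = a ∨ w = a' ∨ w = c) : False := by
  have hirr : ∀ x, ¬ r x x := fun x h => hasym x x h h
  have hβ : (outN2 r v).card < (outN r v).card := hno v
  have hZle : ∀ u, (outN r u ∩ outN2 r v).card ≤ (outN2 r v).card :=
    fun u => Finset.card_le_card Finset.inter_subset_right
  have hne1 : a ≠ a' := by rintro rfl; exact hirr _ haa'
  have hne2 : a ≠ c := by rintro rfl; exact hirr _ hca
  have hne3 : a' ≠ c := by rintro rfl; exact hirr _ ha'c
  have hAeq : outN r v = {a, a', c} := by
    ext w
    rw [mem_outN, Finset.mem_insert, Finset.mem_insert, Finset.mem_singleton]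
    constructor
    · exact hA3 w
    · rintro (rfl | rfl | rfl) <;> assumption
  have hAcard : (outN r v).card = 3 := by
    rw [hAeq]
    exact Finset.card_eq_three.mpr ⟨a, a', c, hne1, hne2, hne3, rfl⟩
  -- each vertex of the triangle dominates all of B
  have hdom : ∀ p q s, r v p → r p q → r q s → r s p →
      (∀ w, r v w → w = p ∨ w = q ∨ w = s) →
      (∀ b, b ∈ outN2 r v → r p b) ∧ (outN r p).card ≤ 1 + (outN2 r v).card := by
    intro p q s hp hpq hqs hsp hall
    have hX1 : outN r p ∩ outN r v ⊆ {q} := by
      intro x hx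
      rw [Finset.mem_singleton]
      have hpx := (mem_outN r).mp (Finset.mem_inter.mp hx).1
      have hvx := (mem_outN r).mp (Finset.mem_inter.mp hx).2
      rcases hall x hvx with rfl | rfl | rfl
      · exact absurd hpx (hirr _)
      · rfl
      · exact absurd hpx (hasym _ _ hsp)
    have hX1c : (outN r p ∩ outN r v).card ≤ 1 := by
      have := Finset.card_le_card hX1
      rwa [Finset.card_singleton] at this
    have hs := card_split r hasym hp
    have h1 := hmin p
    have h2 := hZle p
    have heq : outN r p ∩ outN2 r v = outN2 r v :=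
      Finset.eq_of_subset_of_card_le Finset.inter_subset_right (by omega)
    refine ⟨?_, by omega⟩
    intro b hb
    rw [← heq] at hb
    exact (mem_outN r).mp (Finset.mem_inter.mp hb).1
  obtain ⟨hdoma, hda⟩ := hdom a a' c hva haa' ha'c hca hA3
  obtain ⟨hdoma', -⟩ := hdom a' c a hva' ha'c hca haa'
    (fun w hw => by rcases hA3 w hw with h | h | h <;> tauto)
  obtain ⟨hdomc, -⟩ := hdom c a a' hvc hca haa' ha'c
    (fun w hw => by rcases hA3 w hw with h | h | h <;> tauto)
  -- B has exactly two elements
  have hBcard : (outN2 r v).card = 2 := by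
    have hs := card_split r hasym hva
    have h1 := hmin a
    have h2 := hZle a
    omega
  obtain ⟨b1, b2, hb12, hBeq⟩ := Finset.card_eq_two.mp hBcard
  have hsink : ∃ b, b ∈ outN2 r v ∧ ∀ w, w ∈ outN2 r v → ¬ r b w := by
    by_cases h : r b1 b2
    · refine ⟨b2, by rw [hBeq]; simp, ?_⟩
      intro w hw
      rw [hBeq, Finset.mem_insert, Finset.mem_singleton] at hw
      rcases hw with rfl | rfl
      · exact hasym _ _ h
      · exact hirr _
    · refine ⟨b1, by rw [hBeq]; simp, ?_⟩
      intro w hw
      rw [hBeq, Finset.mem_insert, Finset.mem_singleton] at hw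
      rcases hw with rfl | rfl
      · exact hirr _
      · exact h
  obtain ⟨b, hbB, hbsink⟩ := hsink
  have hab : r a b := hdoma b hbB
  have hnoA : ∀ w, r b w → ¬ r v w := by
    intro w hbw hvw
    rcases hA3 w hvw with rfl | rfl | rfl
    · exact hasym _ _ (hdoma b hbB) hbw
    · exact hasym _ _ (hdoma' b hbB) hbw
    · exact hasym _ _ (hdomc b hbB) hbw
  have hsub : insert c (outN r b) ⊆ outN2 r a := by
    intro w hw
    rw [Finset.mem_insert] at hw
    rw [mem_outN2]
    rcases hw with rfl | hw
    · exact ⟨fun h => hne2 h.symm, hasym _ _ hca, a', haa', ha'c⟩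
    · have hbw := (mem_outN r).mp hw
      refine ⟨?_, ?_, b, hab, hbw⟩
      · rintro rfl
        exact hasym _ _ hab hbw
      · intro haw
        have hmem := outN_subset r hasym hva ((mem_outN r).mpr haw)
        rw [Finset.mem_union] at hmem
        rcases hmem with h | h
        · exact hnoA w hbw ((mem_outN r).mp h)
        · exact hbsink w h hbw
  have hcnot : c ∉ outN r b := by
    rw [mem_outN]
    exact fun h => hnoA c h hvc
  have hcard := Finset.card_le_card hsub
  rw [Finset.card_insert_of_notMem hcnot] at hcard
  have h1 := hmin b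
  have h2 := hno a
  omega

/-- Seymour's second neighbourhood conjecture for oriented graphs in which every arc
`u -> w` has at most two common out-neighbours of `u` and `w`. -/
theorem exists_seymour_of_common_le_two [Nonempty V] (hasym : ∀ u w, r u w → ¬ r w u)
    (ht : ∀ u w, r u w → (Finset.univ.filter (fun x => r u x ∧ r w x)).card ≤ 2) :
    ∃ v, (outN r v).card ≤ (outN2 r v).card := by
  by_contra hno
  have hno : ∀ x, (outN2 r x).card < (outN r x).card := by
    intro x
    by_contra h
    exact hno ⟨x, not_lt.mp h⟩
  have hirr : ∀ x, ¬ r x x := fun x h => hasym x x h h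
  obtain ⟨v, -, hmin0⟩ := Finset.exists_min_image Finset.univ (fun x => (outN r x).card)
    Finset.univ_nonempty
  have hmin : ∀ x, (outN r v).card ≤ (outN r x).card := fun x => hmin0 x (Finset.mem_univ x)
  have hβ : (outN2 r v).card < (outN r v).card := hno v
  have hZle : ∀ u, (outN r u ∩ outN2 r v).card ≤ (outN2 r v).card :=
    fun u => Finset.card_le_card Finset.inter_subset_right
  -- every vertex of A has an out-neighbour in A
  have hXpos : ∀ u, r v u → ∃ u', r u u' ∧ r v u' := by
    intro u hu
    have hs := card_split r hasym hu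
    have h1 := hmin u
    have h2 := hZle u
    have hpos : 0 < (outN r u ∩ outN r v).card := by omega
    obtain ⟨u', hu'⟩ := Finset.card_pos.mp hpos
    exact ⟨u', (mem_outN r).mp (Finset.mem_inter.mp hu').1,
      (mem_outN r).mp (Finset.mem_inter.mp hu').2⟩
  -- key covering property
  have hK : ∀ u u', r v u → r v u' → r u u' → ∀ w, r v w → w ≠ u → (r u w ∨ r u' w) := by
    intro u u' hu hu' huu' w hw hwu
    have hs := card_split r hasym hu
    have hs' := card_split r hasym hu'
    have hc := common_ge r u u' v
    have hcomm := ht u u' huu'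
    have hunion : (outN r u ∩ outN2 r v ∪ outN r u' ∩ outN2 r v).card ≤ (outN2 r v).card :=
      Finset.card_le_card (Finset.union_subset Finset.inter_subset_right Finset.inter_subset_right)
    have hie := Finset.card_union_add_card_inter (outN r u ∩ outN2 r v) (outN r u' ∩ outN2 r v)
    have hie2 := Finset.card_union_add_card_inter (outN r u ∩ outN r v) (outN r u' ∩ outN r v)
    have hsub : outN r u ∩ outN r v ∪ outN r u' ∩ outN r v ⊆ (outN r v).erase u := by
      intro x hx
      rw [Finset.mem_erase]
      rw [Finset.mem_union] at hx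
      rcases hx with hx | hx
      · refine ⟨?_, (Finset.mem_inter.mp hx).2⟩
        rintro rfl
        exact hirr _ ((mem_outN r).mp (Finset.mem_inter.mp hx).1)
      · refine ⟨?_, (Finset.mem_inter.mp hx).2⟩
        rintro rfl
        exact hasym _ _ huu' ((mem_outN r).mp (Finset.mem_inter.mp hx).1)
    have hcard : ((outN r v).erase u).card = (outN r v).card - 1 :=
      Finset.card_erase_of_mem ((mem_outN r).mpr hu)
    have h1 := hmin u
    have h2 := hmin u'
    have heq := Finset.eq_of_subset_of_card_le hsub (by omega)
    have hwmem : w ∈ (outN r v).erase u := Finset.mem_erase.mpr ⟨hwu, (mem_outN r).mpr hw⟩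
    rw [← heq, Finset.mem_union] at hwmem
    rcases hwmem with h | h
    · exact Or.inl ((mem_outN r).mp (Finset.mem_inter.mp h).1)
    · exact Or.inr ((mem_outN r).mp (Finset.mem_inter.mp h).1)
  have hclose : ∀ p q s, r v p → r v q → r v s → r p q → r q s → r s p := by
    intro p q s hp hq hs hpq hqs
    rcases hK q s hq hs hqs p hp (by rintro rfl; exact hirr _ hpq) with h | h
    · exact absurd h (hasym _ _ hpq)
    · exact h
  have hdisj : ∀ p q s, r v p → r v q → r v s → r p q → r p s → ¬ r q s := by
    intro p q s hp hq hs hpq hps hqs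
    exact hasym _ _ hps (hclose p q s hp hq hs hpq hqs)
  -- a directed triangle inside A
  have hApos : 0 < (outN r v).card := by omega
  obtain ⟨a, ha⟩ := Finset.card_pos.mp hApos
  have hva : r v a := (mem_outN r).mp ha
  obtain ⟨a', haa', hva'⟩ := hXpos a hva
  obtain ⟨c, ha'c, hvc⟩ := hXpos a' hva'
  have hca : r c a := hclose a a' c hva hva' hvc haa' ha'c
  have hA3 : ∀ w, r v w → w = a ∨ w = a' ∨ w = c := by
    intro w hw
    by_contra hne
    rw [not_or, not_or] at hne
    obtain ⟨hwa, hwa', hwc⟩ := hne
    rcases hK a a' hva hva' haa' w hw hwa with h | h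
    · rcases hK a' c hva' hvc ha'c w hw hwa' with h' | h'
      · exact hdisj a a' w hva hva' hw haa' h h'
      · exact hdisj c a w hvc hva hw hca h' h
    · rcases hK c a hvc hva hca w hw hwc with h' | h'
      · exact hdisj a' c w hva' hvc hw ha'c h h'
      · exact hdisj a a' w hva hva' hw haa' h' h
  exact triangle_endgame r hasym hno v hmin a a' c hva hva' hvc haa' ha'c hca hA3

end

end Vale.Agent.Lib.P038
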