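import Vale.Agent.Lib.P038.Basic

namespace Vale.Agent.Lib.P038

open Finset

variable {V : Type*} [Fintype V] [DecidableEq V]

section
variable (r : V → V → Prop) [DecidableRel r]

/-- out-degree inside the out-neighbourhood of `v`, written as a filter -/
lemma filter_out_eq (u v : V) :
    (outN r v).filter (fun w => r u w) = outN r u ∩ outN r v := by
  ext x
  simp only [Finset.mem_filter, Finset.mem_inter, mem_outN]
  tauto

/-- In a finite digraph (restricted to a vertex set `A`) in which every vertex of `A` has an
out-neighbour in `A`, some arc `u -> u'` inside `A` has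
`outdeg_A u' <= indeg_A u`. -/
lemma exists_arc_out_le_in (A : Finset V) (hne : A.Nonempty)
    (hpos : ∀ u ∈ A, 0 < (A.filter (fun w => r u w)).card) :
    ∃ u ∈ A, ∃ u' ∈ A, r u u' ∧
      (A.filter (fun w => r u' w)).card ≤ (A.filter (fun w => r w u)).card := by
  by_contra hcon
  have hall : ∀ u ∈ A, ∀ u' ∈ A, r u u' →
      (A.filter (fun w => r w u)).card + 1 ≤ (A.filter (fun w => r u' w)).card := by
    intro u hu u' hu' h
    by_contra hlt
    exact hcon ⟨u, hu, u', hu', h, by omega⟩
  -- double counting
  have h1 : ∑ u ∈ A, ∑ u' ∈ A, (if r u u' then (A.filter (fun w => r u' w)).card else 0)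
      = ∑ u' ∈ A, (A.filter (fun w => r w u')).card * (A.filter (fun w => r u' w)).card := by
    rw [Finset.sum_comm]
    apply Finset.sum_congr rfl
    intro u' _
    rw [← Finset.sum_filter, Finset.sum_const, smul_eq_mul]
  have h2 : ∑ u ∈ A, ∑ u' ∈ A, (if r u u' then (A.filter (fun w => r w u)).card + 1 else 0)
      = ∑ u ∈ A, (A.filter (fun w => r u w)).card * ((A.filter (fun w => r w u)).card + 1) := by
    apply Finset.sum_congr rfl
    intro u _
    rw [← Finset.sum_filter, Finset.sum_const, smul_eq_mul]
  have h3 : ∑ u ∈ A, ∑ u' ∈ A, (if r u u' then (A.filter (fun w => r w u)).card + 1 else 0)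
      ≤ ∑ u ∈ A, ∑ u' ∈ A, (if r u u' then (A.filter (fun w => r u' w)).card else 0) := by
    apply Finset.sum_le_sum
    intro u hu
    apply Finset.sum_le_sum
    intro u' hu'
    by_cases h : r u u'
    · simp only [h, if_true]
      exact hall u hu u' hu' h
    · simp [h]
  rw [h1, h2] at h3
  have h4 : ∑ u ∈ A, (A.filter (fun w => r u w)).card * ((A.filter (fun w => r w u)).card + 1)
      = ∑ u ∈ A, (A.filter (fun w => r w u)).card * (A.filter (fun w => r u w)).card
        + ∑ u ∈ A, (A.filter (fun w => r u w)).card := by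
    rw [← Finset.sum_add_distrib]
    apply Finset.sum_congr rfl
    intro u _
    ring
  rw [h4] at h3
  have h5 : ∑ u ∈ A, (A.filter (fun w => r u w)).card = 0 := by omega
  obtain ⟨u0, hu0⟩ := hne
  have h6 := (Finset.sum_eq_zero_iff.mp h5) u0 hu0
  have h7 := hpos u0 hu0
  omega

/-- neighbours of `u` inside the out-neighbourhood of `v` are common neighbours of `v`, `u` -/
lemma xy_le (hasym : ∀ u w, r u w → ¬ r w u) (t : ℕ)
    (ht : ∀ u w, r u w →
      (Finset.univ.filter (fun x => (r u x ∨ r x u) ∧ (r w x ∨ r x w))).card ≤ t)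
    {v u : V} (hvu : r v u) :
    (outN r u ∩ outN r v).card + ((outN r v).filter (fun w => r w u)).card ≤ t := by
  rw [← Finset.card_union_of_disjoint]
  · refine le_trans (Finset.card_le_card ?_) (ht v u hvu)
    intro x hx
    rw [Finset.mem_union] at hx
    simp only [Finset.mem_filter, Finset.mem_univ, true_and]
    rcases hx with hx | hx
    · rw [Finset.mem_inter, mem_outN, mem_outN] at hx
      exact ⟨Or.inl hx.2, Or.inl hx.1⟩
    · rw [Finset.mem_filter, mem_outN] at hx
      exact ⟨Or.inl hx.1, Or.inr hx.2⟩
  · rw [Finset.disjoint_left]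
    intro x hx hx'
    rw [Finset.mem_inter, mem_outN] at hx
    rw [Finset.mem_filter] at hx'
    exact hasym _ _ hx.1 hx'.2

/-- common neighbours of two out-neighbours `u`, `u'` of `v`: the vertex `v`, the common
out-neighbours in the second neighbourhood of `v`, and any further set `S` of common neighbours
inside the out-neighbourhood of `v` -/
lemma common_nbrs_ge (hasym : ∀ u w, r u w → ¬ r w u) {v u u' : V} (hvu : r v u) (hvu' : r v u')
    (S : Finset V)
    (hS : ∀ w ∈ S, r v w ∧ (r u w ∨ r w u) ∧ (r u' w ∨ r w u')) :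
    (outN r u ∩ outN2 r v ∩ (outN r u' ∩ outN2 r v)).card + 1 + S.card ≤
      (Finset.univ.filter (fun x => (r u x ∨ r x u) ∧ (r u' x ∨ r x u'))).card := by
  have hvnot : v ∉ outN r u ∩ outN2 r v ∩ (outN r u' ∩ outN2 r v) := by
    intro hv
    have := (Finset.mem_inter.mp (Finset.mem_inter.mp hv).1).1
    exact hasym _ _ hvu ((mem_outN r).mp this)
  have hdisj : Disjoint (insert v (outN r u ∩ outN2 r v ∩ (outN r u' ∩ outN2 r v))) S := by
    rw [Finset.disjoint_left]
    intro x hx hxS
    have hvx := (hS x hxS).1
    rw [Finset.mem_insert] at hx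
    rcases hx with rfl | hx
    · exact hasym _ _ hvx hvx
    · have hxB := (Finset.mem_inter.mp (Finset.mem_inter.mp hx).1).2
      rw [mem_outN2] at hxB
      exact hxB.2.1 hvx
  rw [← Finset.card_insert_of_notMem hvnot, ← Finset.card_union_of_disjoint hdisj]
  apply Finset.card_le_card
  intro x hx
  simp only [Finset.mem_filter, Finset.mem_univ, true_and]
  rw [Finset.mem_union, Finset.mem_insert] at hx
  rcases hx with (rfl | hx) | hx
  · exact ⟨Or.inr hvu, Or.inr hvu'⟩
  · have h1 := (Finset.mem_inter.mp (Finset.mem_inter.mp hx).1).1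
    have h2 := (Finset.mem_inter.mp (Finset.mem_inter.mp hx).2).1
    exact ⟨Or.inl ((mem_outN r).mp h1), Or.inl ((mem_outN r).mp h2)⟩
  · obtain ⟨-, h1, h2⟩ := hS x hx
    exact ⟨h1.imp id id, h2.imp id id⟩

/-- If every edge of the underlying graph lies in at most `t` triangles and the minimum
out-degree is at least `2 t - 1`, every vertex of minimum out-degree is a Seymour vertex. -/
theorem seymour_of_two_mul_le (hasym : ∀ u w, r u w → ¬ r w u) (t : ℕ)
    (ht : ∀ u w, r u w →
      (Finset.univ.filter (fun x => (r u x ∨ r x u) ∧ (r w x ∨ r x w))).card ≤ t)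
    (v : V) (hmin : ∀ x, (outN r v).card ≤ (outN r x).card)
    (hδ : 2 * t ≤ (outN r v).card + 1) :
    (outN r v).card ≤ (outN2 r v).card := by
  by_contra hlt
  rw [not_le] at hlt
  have hApos : 0 < (outN r v).card := by omega
  have hne : (outN r v).Nonempty := Finset.card_pos.mp hApos
  have hZle : ∀ u, (outN r u ∩ outN2 r v).card ≤ (outN2 r v).card :=
    fun u => Finset.card_le_card Finset.inter_subset_right
  have hpos : ∀ u ∈ outN r v, 0 < ((outN r v).filter (fun w => r u w)).card := by
    intro u hu
    rw [filter_out_eq]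
    have hs := card_split r hasym ((mem_outN r).mp hu)
    have h1 := hmin u
    have h2 := hZle u
    omega
  obtain ⟨u, hu, u', hu', huu', hle⟩ := exists_arc_out_le_in r (outN r v) hne hpos
  have hvu : r v u := (mem_outN r).mp hu
  have hvu' : r v u' := (mem_outN r).mp hu'
  rw [filter_out_eq] at hle
  have hxy := xy_le r hasym t ht hvu
  have hcommon := common_nbrs_ge r hasym hvu hvu' ∅ (by simp)
  have hcomm2 := ht u u' huu'
  rw [Finset.card_empty] at hcommon
  have hs := card_split r hasym hvu
  have hs' := card_split r hasym hvu'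
  have hunion : (outN r u ∩ outN2 r v ∪ outN r u' ∩ outN2 r v).card ≤ (outN2 r v).card :=
    Finset.card_le_card (Finset.union_subset Finset.inter_subset_right Finset.inter_subset_right)
  have hie := Finset.card_union_add_card_inter (outN r u ∩ outN2 r v) (outN r u' ∩ outN2 r v)
  have h1 := hmin u
  have h2 := hmin u'
  omega

/-- Seymour's second neighbourhood conjecture for orientations of graphs in which every edge
lies in at most three triangles. -/
theorem exists_seymour_of_triangles_le_three [Nonempty V] (hasym : ∀ u w, r u w → ¬ r w u)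
    (ht : ∀ u w, r u w →
      (Finset.univ.filter (fun x => (r u x ∨ r x u) ∧ (r w x ∨ r x w))).card ≤ 3) :
    ∃ v, (outN r v).card ≤ (outN2 r v).card := by
  by_contra hno
  have hno : ∀ x, (outN2 r x).card < (outN r x).card := by
    intro x
    by_contra h
    exact hno ⟨x, not_lt.mp h⟩
  have hirr : ∀ x, ¬ r x x := fun x h => hasym x x h h
  obtain ⟨v, -, hmin0⟩ := Finset.exists_min_image Finset.univ (fun x => (outN r x).card)
    Finset.univ_nonempty
  have hmin : ∀ x, (outN r v).card ≤ (outN r x).card := fun x => hmin0 x (Finset.mem_univ x)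
  have hβ : (outN2 r v).card < (outN r v).card := hno v
  have hδ4 : (outN r v).card ≤ 4 := by
    by_contra h
    have := seymour_of_two_mul_le r hasym 3 ht v hmin (by omega)
    omega
  have hZle : ∀ u, (outN r u ∩ outN2 r v).card ≤ (outN2 r v).card :=
    fun u => Finset.card_le_card Finset.inter_subset_right
  have hXpos : ∀ u, r v u → ∃ u', r u u' ∧ r v u' := by
    intro u hu
    have hs := card_split r hasym hu
    have h1 := hmin u
    have h2 := hZle u
    have hpos : 0 < (outN r u ∩ outN r v).card := by omega
    obtain ⟨u', hu'⟩ := Finset.card_pos.mp hpos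
    exact ⟨u', (mem_outN r).mp (Finset.mem_inter.mp hu').1,
      (mem_outN r).mp (Finset.mem_inter.mp hu').2⟩
  have hApos : 0 < (outN r v).card := by omega
  have hne : (outN r v).Nonempty := Finset.card_pos.mp hApos
  obtain ⟨a, ha⟩ := hne
  have hva : r v a := (mem_outN r).mp ha
  obtain ⟨a', haa', hva'⟩ := hXpos a hva
  obtain ⟨c, ha'c, hvc⟩ := hXpos a' hva'
  have hne1 : a ≠ a' := by rintro rfl; exact hirr _ haa'
  have hne2 : a ≠ c := by rintro rfl; exact hasym _ _ haa' ha'c
  have hne3 : a' ≠ c := by rintro rfl; exact hirr _ ha'c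
  have hsub3 : ({a, a', c} : Finset V) ⊆ outN r v := by
    intro w hw
    rw [Finset.mem_insert, Finset.mem_insert, Finset.mem_singleton] at hw
    rw [mem_outN]
    rcases hw with rfl | rfl | rfl <;> assumption
  have hcard3 : ({a, a', c} : Finset V).card = 3 :=
    Finset.card_eq_three.mpr ⟨a, a', c, hne1, hne2, hne3, rfl⟩
  have h3le : 3 ≤ (outN r v).card := by
    have := Finset.card_le_card hsub3
    omega
  rcases (by omega : (outN r v).card = 3 ∨ (outN r v).card = 4) with h | h
  · -- out-degree three: the out-neighbourhood is a directed triangle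
    have hAeq : ({a, a', c} : Finset V) = outN r v :=
      Finset.eq_of_subset_of_card_le hsub3 (by omega)
    have hA3 : ∀ w, r v w → w = a ∨ w = a' ∨ w = c := by
      intro w hw
      have hmem : w ∈ outN r v := (mem_outN r).mpr hw
      rw [← hAeq, Finset.mem_insert, Finset.mem_insert, Finset.mem_singleton] at hmem
      exact hmem
    obtain ⟨w, hcw, hvw⟩ := hXpos c hvc
    have hca : r c a := by
      rcases hA3 w hvw with rfl | rfl | rfl
      · exact hcw
      · exact absurd hcw (hasym _ _ ha'c)
      · exact absurd hcw (hirr _)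
    exact triangle_endgame r hasym hno v hmin a a' c hva hva' hvc haa' ha'c hca hA3
  · -- out-degree four
    have hpos : ∀ u ∈ outN r v, 0 < ((outN r v).filter (fun w => r u w)).card := by
      intro u hu
      rw [filter_out_eq]
      obtain ⟨u', huu', hvu'⟩ := hXpos u ((mem_outN r).mp hu)
      exact Finset.card_pos.mpr ⟨u', Finset.mem_inter.mpr
        ⟨(mem_outN r).mpr huu', (mem_outN r).mpr hvu'⟩⟩
    obtain ⟨u, hu, u', hu', huu', hle⟩ :=
      exists_arc_out_le_in r (outN r v) ⟨a, ha⟩ hpos
    have hvu : r v u := (mem_outN r).mp hu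
    have hvu' : r v u' := (mem_outN r).mp hu'
    rw [filter_out_eq] at hle
    have hxy := xy_le r hasym 3 ht hvu
    have hcomm2 := ht u u' huu'
    have hs := card_split r hasym hvu
    have hs' := card_split r hasym hvu'
    have hunion : (outN r u ∩ outN2 r v ∪ outN r u' ∩ outN2 r v).card ≤ (outN2 r v).card :=
      Finset.card_le_card
        (Finset.union_subset Finset.inter_subset_right Finset.inter_subset_right)
    have hie := Finset.card_union_add_card_inter (outN r u ∩ outN2 r v) (outN r u' ∩ outN2 r v)
    have h1 := hmin u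
    have h2 := hmin u'
    -- first the weak bound: x u + y u = 3
    have hcommon0 := common_nbrs_ge r hasym hvu hvu' ∅ (by simp)
    rw [Finset.card_empty] at hcommon0
    have hxy3 : (outN r u ∩ outN r v).card + ((outN r v).filter (fun w => r w u)).card = 3 := by
      omega
    -- every other vertex of A is adjacent to u
    have hdisjXY : Disjoint (outN r u ∩ outN r v) ((outN r v).filter (fun w => r w u)) := by
      rw [Finset.disjoint_left]
      intro x hx hx'
      rw [Finset.mem_inter, mem_outN] at hx
      rw [Finset.mem_filter] at hx'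
      exact hasym _ _ hx.1 hx'.2
    have hsubXY : outN r u ∩ outN r v ∪ (outN r v).filter (fun w => r w u) ⊆
        (outN r v).erase u := by
      intro x hx
      rw [Finset.mem_erase]
      rw [Finset.mem_union] at hx
      rcases hx with hx | hx
      · refine ⟨?_, (Finset.mem_inter.mp hx).2⟩
        rintro rfl
        exact hirr _ ((mem_outN r).mp (Finset.mem_inter.mp hx).1)
      · refine ⟨?_, (Finset.mem_filter.mp hx).1⟩
        rintro rfl
        exact hirr _ (Finset.mem_filter.mp hx).2
    have hcardE : ((outN r v).erase u).card = (outN r v).card - 1 :=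
      Finset.card_erase_of_mem hu
    have hXYeq := Finset.eq_of_subset_of_card_le hsubXY
      (by rw [Finset.card_union_of_disjoint hdisjXY]; omega)
    obtain ⟨w, hu'w, hvw⟩ := hXpos u' hvu'
    have hwu : w ≠ u := by
      rintro rfl
      exact hasym _ _ huu' hu'w
    have hwmem : w ∈ (outN r v).erase u := Finset.mem_erase.mpr ⟨hwu, (mem_outN r).mpr hvw⟩
    rw [← hXYeq, Finset.mem_union] at hwmem
    have hadj : r u w ∨ r w u := by
      rcases hwmem with hw | hw
      · exact Or.inl ((mem_outN r).mp (Finset.mem_inter.mp hw).1)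
      · exact Or.inr (Finset.mem_filter.mp hw).2
    have hcommon1 := common_nbrs_ge r hasym hvu hvu' {w} (by
      intro x hx
      rw [Finset.mem_singleton] at hx
      subst hx
      exact ⟨hvw, hadj, Or.inl hu'w⟩)
    rw [Finset.card_singleton] at hcommon1
    omega

end

end Vale.Agent.Lib.P038
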